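import Vale.Agent.P325.Stmt
import Mathlib.Analysis.Complex.ExponentialBounds

/-!
# From `q` to a real exponent
-/

namespace Vale.Agent.P325

/-- the exponent `1 / q` with `q = ⌈1 / α⌉` -/
theorem alpha_q {α : ℝ} (h0 : 0 < α) (h1 : α ≤ 1) : ∃ q : ℕ, 1 ≤ q ∧ 1 / (q : ℝ) ≤ α ∧
    α / (4 * (1 + Real.log (1 / α))) ≤ 1 / (q * (1 + Real.log q)) := by
  have hi : 1 ≤ 1 / α := by rw [one_le_div h0]; exact h1
  have hlog : 0 ≤ Real.log (1 / α) := Real.log_nonneg hi
  have hq0 : 0 < 1 / α := by positivity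
  set q := ⌈1 / α⌉₊ with hq
  have hq1 : 1 / α ≤ q := Nat.le_ceil _
  have hq2 : (q : ℝ) < 1 / α + 1 := Nat.ceil_lt_add_one hq0.le
  have hq3 : (1 : ℝ) ≤ q := hi.trans hq1
  have hq4 : (q : ℝ) ≤ 2 * (1 / α) := by linarith
  refine ⟨q, by exact_mod_cast hq3, ?_, ?_⟩
  · rw [div_le_iff₀ (by linarith)]
    rw [div_le_iff₀ h0] at hq1
    linarith
  · have hlogq : Real.log q ≤ Real.log 2 + Real.log (1 / α) := by
      rw [← Real.log_mul (by norm_num) hq0.ne']
      exact Real.log_le_log (by linarith) hq4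
    have hlogq0 : 0 ≤ Real.log q := Real.log_nonneg hq3
    have hl2 : Real.log 2 ≤ 1 := by
      have := Real.log_two_lt_d9
      linarith
    rw [div_le_div_iff₀ (by positivity) (by positivity), one_mul]
    have e1 : α * q ≤ 2 := by
      rw [show (2 : ℝ) = α * (2 * (1 / α)) by field_simp]
      exact mul_le_mul_of_nonneg_left hq4 h0.le
    have e2 : 1 + Real.log q ≤ 2 * (1 + Real.log (1 / α)) := by linarith
    calc α * (q * (1 + Real.log q)) = (α * q) * (1 + Real.log q) := by ring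
      _ ≤ 2 * (2 * (1 + Real.log (1 / α))) :=
        mul_le_mul e1 e2 (by linarith) (by norm_num)
      _ = 4 * (1 + Real.log (1 / α)) := by ring

end Vale.Agent.P325
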